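import Vale.Agent.P218G.GBlow

/-! From limits along filters to limits along sequences. -/

open MeasureTheory Set Filter Topology Metric

namespace Vale.Agent.P218R24

open Vale.Agent.P218 Vale.Agent.P218G.Lit Vale.Agent.P218G.Rg Vale.Agent.P218G.GL
open Vale.Agent.P218FT (E3)

/-- a countable family of test functions which is dense with a Gaussian weight -/
lemma exists_fam : ∃ Ψ : ℕ × ℕ → E3 → ℝ, (∀ k, Continuous (Ψ k) ∧ HasCompactSupport (Ψ k)) ∧
    ∀ φ : E3 → ℝ, Continuous φ → HasCompactSupport φ → ∀ ε : ℝ, 0 < ε →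
      ∃ k, ∀ x, |φ x - Ψ k x| ≤ ε * gk0 1 (x - 0) := by
  choose χ hχ1 hχ2 using fun k : ℕ => exists_cutoff (E := E3) (k : ℝ)
  let D : ℕ → C(E3, ℝ) := TopologicalSpace.denseSeq C(E3, ℝ)
  have hD : DenseRange D := TopologicalSpace.denseRange_denseSeq _
  have hg : Continuous fun x : E3 => gk0 1 (x - 0) := continuous_gk0' 1 0
  have g0 : ∀ x : E3, 0 < gk0 1 (x - 0) := fun x => gk0_pos one_pos _
  refine ⟨fun p x => χ p.1 x * (D p.2 x * gk0 1 (x - 0)), fun p =>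
    ⟨(χ p.1).continuous.mul ((D p.2).continuous.mul hg), (χ p.1).hasCompactSupport.mul_right⟩,
    fun φ hφ hc ε hε => ?_⟩
  obtain ⟨R, hR⟩ := hc.isCompact.isBounded.subset_closedBall 0
  obtain ⟨k, hk⟩ := exists_nat_ge R
  have h1 : ∀ x, φ x = χ k x * φ x := fun x => by
    by_cases hx : ‖x‖ ≤ k
    · rw [hχ2 k x hx, one_mul]
    · rw [image_eq_zero_of_notMem_tsupport fun h => hx ((mem_closedBall_zero_iff.1 (hR h)).trans hk),
        mul_zero]
  let g : C(E3, ℝ) := ⟨fun x => φ x * (gk0 1 (x - 0))⁻¹, hφ.mul (hg.inv₀ fun x => (g0 x).ne')⟩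
  have hopen : IsOpen {f : C(E3, ℝ) | MapsTo (f - g) (tsupport (χ k)) (ball 0 ε)} :=
    (ContinuousMap.isOpen_setOfPred_mapsTo (χ k).hasCompactSupport.isCompact
      isOpen_ball).preimage (continuous_sub_right g)
  obtain ⟨j, hj⟩ := hD.exists_mem_open hopen ⟨g, fun x _ => by simpa using hε⟩
  refine ⟨(k, j), fun x => ?_⟩
  have e : φ x - χ k x * (D j x * gk0 1 (x - 0)) = χ k x * (-(D j x - g x) * gk0 1 (x - 0)) := by
    have : g x * gk0 1 (x - 0) = φ x := inv_mul_cancel_right₀ (g0 x).ne' _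
    conv_lhs => rw [h1 x, ← this]
    ring
  rw [e]
  by_cases hx : x ∈ tsupport (χ k)
  · have h2 : |D j x - g x| < ε := by simpa using hj hx
    rw [abs_mul, abs_mul, abs_neg, abs_of_nonneg (hχ1 k x).1, abs_of_pos (g0 x)]
    exact (mul_le_of_le_one_left (mul_nonneg (abs_nonneg _) (g0 x).le) (hχ1 k x).2).trans
      (mul_le_mul_of_nonneg_right h2.le (g0 x).le)
  · rw [image_eq_zero_of_notMem_tsupport hx, zero_mul, abs_zero]
    exact (mul_pos hε (g0 x)).le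

/-- extraction of a sequence from a weak limit along a filter -/
theorem wl_seq {ι : Type*} {l : Filter ι} [l.NeBot] {m : ι → Measure E3} {κ : Measure E3} {D : ℝ}
    (hw : WL l m κ) (hm : ∀ᶠ i in l, Ent (m i) D) (hκ : Ent κ D) {P : ℕ → ι → Prop}
    (hP : ∀ n, ∀ᶠ i in l, P n i) :
    ∃ u : ℕ → ι, (∀ n, P n (u n)) ∧ WeakTendsto (fun n => m (u n)) κ := by
  obtain ⟨Ψ, h1, h2⟩ := exists_fam
  have key : ∀ n : ℕ, ∀ᶠ i in l, P n i ∧ Ent (m i) D ∧ ∀ k ∈ Finset.range n ×ˢ Finset.range n,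
      dist (∫ x, Ψ k x ∂(m i)) (∫ x, Ψ k x ∂κ) < 1 / ((n : ℝ) + 1) := fun n =>
    (hP n).and (hm.and ((eventually_all_finset _).2 fun k _ =>
      Metric.tendsto_nhds.1 (hw _ (h1 k).1 (h1 k).2) _ Nat.one_div_pos_of_nat))
  choose u u1 u2 u3 using fun n => (key n).exists
  refine ⟨u, u1, fun φ hφ hc => tendsto_of_approx fun η hη => ?_⟩
  obtain ⟨ε, hε, h3⟩ := small hκ.nonneg hη
  obtain ⟨k, hk⟩ := h2 φ hφ hc ε hε
  have est : ∀ n : Measure E3, Ent n D → |∫ x, φ x ∂n - ∫ x, Ψ k x ∂n| ≤ η := fun n hn => by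
    have := hn.lf
    exact (abs_sub_le_of hn (hφ.integrable_of_hasCompactSupport hc)
      ((h1 k).1.integrable_of_hasCompactSupport (h1 k).2) one_pos hε.le hk).trans h3
  refine ⟨fun n => ∫ x, Ψ k x ∂(m (u n)), ∫ x, Ψ k x ∂κ, ?_,
    Eventually.of_forall fun n => est _ (u2 n), est _ hκ⟩
  refine tendsto_iff_dist_tendsto_zero.2 (squeeze_zero' (Eventually.of_forall fun _ => dist_nonneg)
    ?_ tendsto_one_div_add_atTop_nhds_zero_nat)
  filter_upwards [eventually_gt_atTop k.1, eventually_gt_atTop k.2] with n a1 a2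
  exact (u3 n k (Finset.mem_product.2 ⟨Finset.mem_range.2 a1, Finset.mem_range.2 a2⟩)).le

variable {μ ν : ℝ → Measure E3} {x₀ : E3} {t₀ a D : ℝ}

/-- every slice of a limit flow is the weak limit of a sequence of slices of rescalings -/
theorem lim_seq (hb : Lim μ x₀ t₀ ν) (h : GS μ a D) (ht : a < t₀) (s : ℝ) :
    ∃ (y : ℕ → E3) (τ lam : ℕ → ℝ), Tendsto y atTop (𝓝 x₀) ∧ Tendsto τ atTop (𝓝 t₀) ∧
      Tendsto lam atTop atTop ∧
      WeakTendsto (fun n => rescaled 2 μ (y n) (τ n) (lam n) s) (ν s) := by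
  obtain ⟨ι, U, x, t, lam, hb⟩ := hb
  obtain ⟨u, h1, h2⟩ := wl_seq (hb.lim s) (hb.ev' h ht s) (hb.ent h ht s)
    (P := fun n i => dist (x i) x₀ < 1 / ((n : ℝ) + 1) ∧ dist (t i) t₀ < 1 / ((n : ℝ) + 1) ∧
      (n : ℝ) ≤ lam i) fun n =>
    (Metric.tendsto_nhds.1 hb.hx _ Nat.one_div_pos_of_nat).and
      ((Metric.tendsto_nhds.1 hb.ht _ Nat.one_div_pos_of_nat).and (hb.top.eventually_ge_atTop _))
  exact ⟨x ∘ u, t ∘ u, lam ∘ u,
    tendsto_iff_dist_tendsto_zero.2 (squeeze_zero (fun _ => dist_nonneg) (fun n => (h1 n).1.le)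
      tendsto_one_div_add_atTop_nhds_zero_nat),
    tendsto_iff_dist_tendsto_zero.2 (squeeze_zero (fun _ => dist_nonneg) (fun n => (h1 n).2.1.le)
      tendsto_one_div_add_atTop_nhds_zero_nat),
    tendsto_atTop_mono (fun n => (h1 n).2.2) tendsto_natCast_atTop_atTop, h2⟩

/-- the same with dilated time slices of `μ` -/
theorem lim_seq' (hb : Lim μ x₀ t₀ ν) (h : GS μ a D) (ht : a < t₀) (s : ℝ) :
    ∃ (y : ℕ → E3) (τ lam : ℕ → ℝ), Tendsto y atTop (𝓝 x₀) ∧ Tendsto τ atTop (𝓝 t₀) ∧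
      Tendsto lam atTop atTop ∧
      WeakTendsto (fun n => rescaled 2 μ (y n) (τ n) (lam n) 0) (ν s) := by
  obtain ⟨y, τ, lam, h1, h2, h3, h4⟩ := lim_seq hb h ht s
  refine ⟨y, fun n => τ n + s / lam n ^ 2, lam, h1, tendsto_time h3 h2 s, h3, ?_⟩
  simpa only [rescaled_eq_dil, zero_div, add_zero] using h4

end Vale.Agent.P218R24
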