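import Vale.Agent.P218R.St

/-! Blow-up limits of one measure. -/

open MeasureTheory Filter Topology

namespace Vale.Agent.P218R24.St

open Vale.Agent.P218 (densityRatio rescaled WeakTendsto)
open Vale.Agent.P218G.St (planeDensity)
open Vale.Agent.P218R.St (IsLineCone)

variable {E : Type} [NormedAddCommGroup E] [InnerProductSpace ℝ E] [FiniteDimensional ℝ E]
  [MeasurableSpace E] [BorelSpace E]

/-- the weak limits of the measures `λ_i (κ - x_i)` (`λ_i → ∞`, arbitrary centres `x_i`) which are
cones invariant along a line have Gaussian density less than `k` -/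
def ConesBelow (κ : Measure E) (k : ℝ) : Prop :=
  ∀ (κ' : Measure E) (x : ℕ → E) (lam : ℕ → ℝ), IsLocallyFiniteMeasure κ' →
    Tendsto lam atTop atTop → WeakTendsto (fun i => rescaled 2 (fun _ => κ) (x i) 0 (lam i) 0) κ' →
    IsLineCone κ' → densityRatio 2 (fun _ => κ') 0 0 1 < k * planeDensity

end Vale.Agent.P218R24.St
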