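import Vale.Agent.P218R18.Fin
import Vale.Agent.P218R24.St
import Vale.Agent.P218S29.L32

/-! Federer's dimension reduction from a hypothesis on one tangent flow. -/

open MeasureTheory Set Filter Topology Metric
open scoped CompactlySupported

namespace Vale.Agent.P218R24

open Vale.Agent.P218 Vale.Agent.P218.H552 Vale.Agent.P218.H313.A1 Vale.Agent.P218G
open Vale.Agent.P218G.Lit Vale.Agent.P218G.Rg Vale.Agent.P218G.GL Vale.Agent.P218G.GC
open Vale.Agent.P218G.WL Vale.Agent.P218FT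
open Vale.Agent.P218F.Dyn (hm)

/-- `m` is in the weak closure of the dilations of `κ` by factors at least `L` -/
def Hull (κ : Measure E3) (L : ℝ) (m : Measure E3) : Prop :=
  fnl m ∈ closure ((fun p : ℝ × E3 => fnl (dil 2 p.1 p.2 κ)) '' {p | L ≤ p.1})

section

variable {κ m : Measure E3} {L D : ℝ} {ι : Type*} {l : Filter ι} {ν ν' : ℝ → Measure E3}
  {lam : ι → ℝ} {y : E3} {t : ℝ}

lemma Hull.self : Hull κ 1 κ := subset_closure ⟨(1, 0), le_refl (1 : ℝ), by simp only [dil_one]⟩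

lemma Hull.lim [l.NeBot] {n : ι → Measure E3} (hw : WL l n m) (h : ∀ᶠ i in l, Hull κ L (n i)) :
    Hull κ L m :=
  isClosed_closure.mem_of_tendsto (f := fun i => fnl (n i))
    (tendsto_pi_nhds.2 fun φ => hw φ φ.continuous φ.hasCompactSupport) h

lemma Hull.dil (h : Hull κ 1 m) {c : ℝ} (hc : 0 < c) (hL : L ≤ c) (y : E3) :
    Hull κ L (dil 2 c y m) := by
  let T : C_c(E3, ℝ) → C_c(E3, ℝ) := fun φ =>
    ⟨⟨fun x => φ (yy c y x), φ.continuous.comp (continuous_yy c y)⟩,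
      hasCompactSupport_comp_yy φ.hasCompactSupport hc.ne' y⟩
  let F : (C_c(E3, ℝ) → ℝ) → C_c(E3, ℝ) → ℝ := fun f φ => c ^ 2 * f (T φ)
  have hF : Continuous F := continuous_pi fun φ => continuous_const.mul (continuous_apply _)
  have e : ∀ n, F (fnl n) = fnl (H313.A1.dil 2 c y n) := fun n =>
    funext fun φ => (integral_dil hc y φ).symm
  rw [Hull, ← e]
  refine map_mem_closure hF h ?_
  rintro _ ⟨p, hp, rfl⟩
  have p0 : 0 < p.1 := one_pos.trans_le hp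
  exact ⟨(c * p.1, p.2 + p.1⁻¹ • y), hL.trans (le_mul_of_one_le_right hc.le hp),
    by simp only [e, dil_dil hc p0]⟩

lemma hull_seq (hκ : Ent κ D) (hm : Ent m D) (h : ∀ L, Hull κ L m) :
    ∃ (x : ℕ → E3) (lam : ℕ → ℝ), Tendsto lam atTop atTop ∧
      WeakTendsto (fun i => dil 2 (lam i) (x i) κ) m := by
  let f := fun p : ℝ × E3 => fnl (dil 2 p.1 p.2 κ)
  have : (comap f (𝓝 (fnl m)) ⊓ comap Prod.fst atTop).NeBot := by
    refine inf_neBot_iff.2 ?_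
    rintro s ⟨s1, h1, h2⟩ s' ⟨s2, h3, h4⟩
    obtain ⟨L, hL⟩ := mem_atTop_sets.1 h3
    obtain ⟨_, h5, p, h6, rfl⟩ := mem_closure_iff_nhds.1 (h L) s1 h1
    exact ⟨p, h2 h5, h4 (hL _ h6)⟩
  have top : Tendsto Prod.fst (comap f (𝓝 (fnl m)) ⊓ comap Prod.fst atTop) (atTop : Filter ℝ) :=
    tendsto_comap.mono_left inf_le_right
  obtain ⟨u, h1, h2⟩ := wl_seq (l := comap f (𝓝 (fnl m)) ⊓ comap Prod.fst atTop)
    (m := fun p => dil 2 p.1 p.2 κ) (κ := m) (fun φ a b =>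
      tendsto_pi_nhds.1 ((tendsto_comap (f := f)).mono_left inf_le_left) ⟨⟨φ, a⟩, b⟩)
    ((top.eventually_gt_atTop 0).mono fun p hp => hκ.dil hp _) hm
    (P := fun n p => (n : ℝ) ≤ p.1) fun n => top.eventually_ge_atTop _
  exact ⟨fun n => (u n).2, fun n => (u n).1, tendsto_atTop_mono h1 tendsto_natCast_atTop_atTop, h2⟩

lemma hull_stat [l.NeBot] (hB : Blow l lam ν y 0 ν') (st : Stat ν) (h : Hull κ 1 (ν (-1))) (L : ℝ) :
    Hull κ L (ν' (-1)) := by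
  refine Hull.lim (hB.lim (-1)) ?_
  filter_upwards [hB.top.eventually_gt_atTop 0, hB.top.eventually_ge_atTop L] with i a1 a2
  rw [rescaled_eq_dil, zero_add, st _ (div_neg_of_neg_of_pos (by norm_num) (by positivity))]
  exact h.dil a1 a2 y

lemma hull_ss [l.NeBot] (hB : Blow l lam ν y t ν') (ht : t ≤ 0) (ss : SS ν)
    (h : Hull κ 1 (ν (-1))) : Hull κ 1 (ν' (-1)) := by
  refine Hull.lim (hB.lim (-1)) ?_
  filter_upwards [hB.top.eventually_gt_atTop 0] with i a1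
  have a2 : -1 / lam i ^ 2 < 0 := div_neg_of_neg_of_pos (by norm_num) (by positivity)
  have a3 : 0 < -(t + -1 / lam i ^ 2) := by linarith
  have a4 := Real.sqrt_pos.2 a3
  have a5 := ss _ a4 (t + -1 / lam i ^ 2) (by linarith)
  rw [Real.sq_sqrt a3.le, div_neg, div_self (by linarith)] at a5
  rw [rescaled_eq_dil, ← a5, dil_dil a1 a4]
  refine h.dil (mul_pos a1 a4) ?_ _
  rw [← div_le_iff₀' a1]
  refine Real.le_sqrt_of_sq_le ?_
  rw [div_pow, one_pow, neg_div]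
  linarith

end

/-- the hypothesis for limit flows -/
def NoC (μ : ℝ → Measure E3) (x₀ : E3) (t₀ : ℝ) (κ : Measure E3) (k : ℝ) : Prop :=
  ∀ ν, Lim μ x₀ t₀ ν → (∀ L, Hull κ L (ν (-1))) → SS ν → Stat ν → ∀ v : E3, ‖v‖ = 1 → Inv ν v →
    GA (ν (-1)) 0 1 < k * om0

variable {μ ν : ℝ → Measure E3} {x₀ : E3} {t₀ a D k : ℝ} {κ : Measure E3}

lemma lim_ent (hb : Lim μ x₀ t₀ ν) (h : GS μ a D) (ht : a < t₀) (s : ℝ) : Ent (ν s) D := by
  obtain ⟨ι, U, x, t, lam, hb⟩ := hb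
  exact hb.ent h ht s

lemma noC (H : St.ConesBelow κ k) (hκ : Ent κ D) (h : GS μ a D) (ht : a < t₀) :
    NoC μ x₀ t₀ κ k := fun ν hb hh ss st v hv iv => by
  obtain ⟨x, lam, h1, h2⟩ := hull_seq hκ (lim_ent hb h ht (-1)) hh
  have h1 := H _ x lam (lim_ent hb h ht (-1)).lf h1 h2 ⟨fun c hc => by
    simpa only [dil, sub_zero] using ss.cone st hc, v, fun c => by simp [c] at hv, fun b => by
    simpa only [dil, one_pow, ENNReal.ofReal_one, one_smul, neg_smul, sub_neg_eq_add]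
      using iv (-b) (-1) (by norm_num)⟩
  rw [densityRatio_eq, one_pow, show P218G.St.planeDensity = om0 / (4 * Real.pi) from rfl,
    ← mul_div_assoc, div_lt_div_iff_of_pos_right (by positivity)] at h1
  exact h1

variable (hμ : IsIntegralBrakkeFlow 2 μ) (h0 : μ 0 univ < ⊤) (hU : IsUnitRegular μ)
  (hc : (Par.IsCyclic μ ∧ k = 2) ∨ k = 3 / 2) (ha : 0 < a) (ht : a < t₀) (h : GS μ a D)
  (H : NoC μ x₀ t₀ κ k)
  (hb : Lim μ x₀ t₀ ν) (ss : SS ν) (hh : Hull κ 1 (ν (-1)))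
include hμ h0 hc ha ht h H hb ss hh

lemma c2 (st : Stat ν) {v p : E3} (hv : ‖v‖ = 1) (iv : Inv ν v) (hp : p ∉ Par.axis v) :
    DL ν p (-1) := fun θ hθ => by
  obtain ⟨ν', a0, a1, a2, a3, a7, a4, a5, -, a6⟩ := hb.exists_tangent h
    ((key_ibf hμ h0).later ha.le) ht p 0 (dens_zero st (by norm_num) hθ)
  have a8 : GA (ν' (-1)) 0 1 = θ := a3 1 one_pos
  exact a8 ▸ Itg.p2 hμ h0 h ht (ha.trans ht) a1 a2 (a4 le_rfl st)
    (fun c => by simp [c] at hv) (fun z c => hp ⟨z, c.symm⟩) (a5 le_rfl v iv) (a6 rfl ss)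
    (a7 _) (a8 ▸ (H ν' a1 (hull_stat a0 st hh) a2 (a4 le_rfl st) v hv (a5 le_rfl v iv)).trans_le
      (mul_le_mul_of_nonneg_right (hc.elim (fun c => c.2.le) fun c => by linarith) om0_pos.le))

include hU

lemma c1 (st : Stat ν) {p : E3} (hp : p ≠ 0) : DL ν p (-1) := fun θ hθ => by
  obtain ⟨ν', a0, a1, a2, a3, -, a4, -, -, a6⟩ := hb.exists_tangent h
    ((key_ibf hμ h0).later ha.le) ht p 0 (dens_zero st (by norm_num) hθ)
  have a8 : GA (ν' (-1)) 0 1 = θ := a3 1 one_pos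
  have iv : Inv ν' (‖p‖⁻¹ • p) := fun b s hs => by rw [smul_smul]; exact a6 rfl ss _ s hs
  have b1 := H ν' a1 (hull_stat a0 st hh) a2 (a4 le_rfl st) _ (norm_smul_inv_norm hp) iv
  have b2 := fun q hq => c2 hμ h0 hc ha ht h H a1 a2 (hull_stat a0 st hh 1) (a4 le_rfl st)
    (norm_smul_inv_norm hp) iv (p := q) hq
  rcases hc with ⟨hc, rfl⟩ | rfl
  · exact a8 ▸ l0_lim hμ h0 hU hc h ha.le ht a1 a2 (a4 le_rfl st) (norm_smul_inv_norm hp) iv b1 b2
  · exact a8 ▸ P218S29.l0_32 hμ h0 hU h ha.le ht a1 a2 (a4 le_rfl st) (norm_smul_inv_norm hp) iv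
      b1 b2

lemma c0 (y : E3) {t : ℝ} (ht' : t < 0) : DL ν y t := fun θ hθ => by
  obtain ⟨ν', a0, a1, a2, a3, -, -, -, a5, -⟩ := hb.exists_tangent h
    ((key_ibf hμ h0).later ha.le) ht y t hθ
  have a8 : GA (ν' (-1)) 0 1 = θ := a3 1 one_pos
  exact a8 ▸ P218R18.l1_lim' hμ h0 hU h ha.le ht a1 a2 (a5 ht' ss) fun q hq =>
    c1 hμ h0 hU hc ha ht h H a1 a2 (hull_ss a0 ht'.le ss hh) (a5 ht' ss) hq

lemma bdd {S : Set E3} {D' : ℝ} (hS : IsShr S) (hA : AreaRatio D' S) (hE : Spt ν (-1) = S) :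
    BddGeom S := by
  obtain ⟨ε, hg⟩ := exists_eps D
  obtain ⟨K, hK⟩ := hb.rsG hg (hg.ibf μ a hμ h0 hU ha.le h) ht
  have hk := hb.key h ht ((key_ibf hμ h0).later ha.le) (-1)
  refine BG.bdd_of_ultra hS hA fun y _ U hU' z => ?_
  have m1 : (-1 : ℝ) < 0 := by norm_num
  obtain ⟨ν', hB⟩ := exists_blow (lam := id) U hU' (hK (-1)).gs y m1
  obtain ⟨W, hW, r, C, hr, h1⟩ := (hB.limD.rs hg (hK (-1)) m1 (-2)).memG hg (y := z) (t := -1)
    (by norm_num) (c0 hμ h0 hU hc ha ht h H (hb.blow h ht hB) (hB.ss (hK (-1)).gs m1 hk)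
      (hull_ss hB le_rfl ss hh) z m1)
  obtain ⟨ρ, hρ, h2⟩ := Metric.mem_nhds_iff.1 hW
  refine ⟨ρ, r, C, hρ, hr, ?_⟩
  filter_upwards [h1, hU' (eventually_gt_atTop 0)] with c a1 a2 x hx a3
  have a4 : x - c • y ∈ scaleSet 1 (c • y) S := by simpa [mem_scaleSet] using hx
  have a5 := a1.2 (-1, x - c • y) (h2 (by
    rw [← ball_prod_same]
    exact ⟨mem_ball_self hρ, by rwa [mem_ball_iff_norm, sub_sub]⟩))
  simp only [id, ss.spt_zero y a2, hE] at a5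
  simpa using (twoPt_scale one_pos a4 r C).1 (a5 a4)

omit ha ht h H hb ss hh in
/-- the tangent flow is a smooth shrinker of bounded geometry -/
theorem gc'' (ht : 0 < t₀) (hκ : κ ∈ tangentSlices 2 μ x₀ t₀) (H : St.ConesBelow κ k) :
    ∃ S : Set E3, IsShr S ∧ BddGeom S ∧ hm S = κ := by
  have hs := half_pos ht
  have hst := half_lt_self ht
  have h := gs_proof μ hμ h0 _ hs
  obtain ⟨ε, hg⟩ := exists_eps ((μ 0).real univ / (t₀ / 2))
  obtain ⟨ν₀, ⟨h1, lam, h2, h3⟩, rfl⟩ := hκ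
  have hUle : (Ultrafilter.of (atTop : Filter ℕ) : Filter ℕ) ≤ atTop := Ultrafilter.of_le _
  obtain ⟨ν, hB⟩ := exists_blow (Ultrafilter.of atTop) (h2.mono_left hUle) h x₀ hst
  have e : ν (-1) = ν₀ (-1) := (hB.lim (-1)).unique
    (WL.mono (l := atTop) (h3 (-1) (by norm_num)) hUle) (hB.lf _) (h1 _ (by norm_num))
  rw [← e] at H ⊢
  have H' : NoC μ x₀ t₀ (ν (-1)) k := noC H (hB.ent h hst _) h hst
  have hs' := hB.ss h hst ((key_ibf hμ h0).later hs.le)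
  obtain ⟨K, hK⟩ := hB.toLim.rsG hg (hg.ibf μ _ hμ h0 hU hs.le h) hst
  obtain ⟨b1, -, -, b2, D', b3⟩ := shr_of hK hs' fun y t ht' =>
    (hK (t - 1)).memG hg (by linarith) (c0 hμ h0 hU hc hs hst h H' hB.toLim hs' Hull.self y ht')
  exact ⟨_, b1, bdd hμ h0 hU hc hs hst h H' hB.toLim hs' Hull.self b1 b3 rfl, b2.symm⟩

omit h0 hU hc ha ht h H hb ss hh in
/-- the same in the words of the statement -/
theorem case_two (hU : P218G.St.IsUnitRegular μ) (hR : ∃ R : ℝ, μ 0 (closedBall 0 R)ᶜ = 0)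
    (x₀ : E3) (t₀ : ℝ) (ht : 0 < t₀) (H : ∃ κ ∈ tangentSlices 2 μ x₀ t₀,
      (P218G.St.IsCyclic μ ∧ St.ConesBelow κ 2) ∨ St.ConesBelow κ (3 / 2)) :
    ∃ S, P218G.St.IsSelfShrinker S ∧ P218G.St.BddGeom S ∧
      P218G.St.hm S ∈ tangentSlices 2 μ x₀ t₀ := by
  obtain ⟨R, hR⟩ := hR
  obtain ⟨κ, hκ, H⟩ := H
  obtain ⟨S, a1, a2, rfl⟩ := H.elim
    (fun c => gc'' hμ (mass_lt hμ hR) hU.lit (Or.inl ⟨c.1, rfl⟩) ht hκ c.2)
    fun c => gc'' hμ (mass_lt hμ hR) hU.lit (Or.inr rfl) ht hκ c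
  exact ⟨S, (isShr_iff S).2 a1, a2, hκ⟩

end Vale.Agent.P218R24
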