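import Vale.Agent.P218R24.Core

/-! A bound for one density ratio gives the hypothesis on the cones. -/

open MeasureTheory Set Filter Topology Metric

namespace Vale.Agent.P218R24

open Vale.Agent.P218 Vale.Agent.P218G
open Vale.Agent.P218G.Lit Vale.Agent.P218G.Rg Vale.Agent.P218G.GL
open Vale.Agent.P218FT (E3)

lemma cones_of_ent {κ : Measure E3} {Θ k : ℝ} (hκ : Ent κ Θ) (h : Θ < k * om0) :
    St.ConesBelow κ k := fun κ' x lam h1 h2 h3 _ => by
  have h4 : Ent κ' Θ := WL.ent (l := atTop) h3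
    ((h2.eventually_gt_atTop 0).mono fun i hi => hκ.dil hi _) h1
  rw [densityRatio_eq, one_pow, show P218G.St.planeDensity = om0 / (4 * Real.pi) from rfl,
    ← mul_div_assoc, div_lt_div_iff_of_pos_right (by positivity)]
  exact (h4.le 0 1 one_pos).trans_lt h

theorem cones_of_dens {μ : ℝ → Measure E3} (hμ : IsIntegralBrakkeFlow 2 μ)
    (hR : ∃ R : ℝ, μ 0 (closedBall 0 R)ᶜ = 0) (x₀ : E3) {t₀ r k : ℝ} (ht : 0 < t₀) (hr : 0 < r)
    (hrt : r ^ 2 ≤ t₀) (hd : densityRatio 2 μ x₀ t₀ r < k * P218G.St.planeDensity) :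
    ∃ κ ∈ tangentSlices 2 μ x₀ t₀, St.ConesBelow κ k := by
  obtain ⟨R, hR⟩ := hR
  have h0 := mass_lt hμ hR
  have h1 : 0 < r ^ 2 := by positivity
  rw [densityRatio_eq, show P218G.St.planeDensity = om0 / (4 * Real.pi) from rfl, ← mul_div_assoc,
    div_lt_div_iff_of_pos_right (by positivity)] at hd
  have h2 := mono0_proof μ hμ h0 x₀ t₀ (t₀ - r ^ 2) (t₀ - r ^ 2 / 2) (by linarith) (by linarith)
    (by linarith)
  rw [sub_sub_cancel t₀ (r ^ 2)] at h2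
  have hs : 0 < t₀ - r ^ 2 / 2 := by linarith
  have hst : t₀ - r ^ 2 / 2 < t₀ := by linarith
  have h := gs_proof μ hμ h0 _ hs
  obtain ⟨Θ, h3⟩ := exists_dens h x₀ hst
  have h4 := h3.le h (σ := t₀ - (t₀ - r ^ 2 / 2)) (by linarith) (sub_pos.2 hst)
  rw [sub_sub_cancel t₀ (t₀ - r ^ 2 / 2)] at h4
  obtain ⟨T, H, hBF⟩ := H552.exists_BF hμ
  obtain ⟨κ, a1, a2⟩ := Dyn.mem_tangentSlices (x₀ := x₀) hBF h0 ht (P := fun κ => Ent κ Θ)
    fun U lam hl => by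
      obtain ⟨ν, hB⟩ := exists_blow U hl h x₀ hst
      exact ⟨ν (-1), hB.ent_dens h hst h3 _, hB.lf _, hB.lim (-1)⟩
  exact ⟨κ, a2, cones_of_ent a1 ((h4.trans h2).trans_lt hd)⟩

end Vale.Agent.P218R24
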